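import Vale.Agent.P066.Window.Chrom

/-!
Elementary positivity for natural unit interval graphs with `h i ≤ i + 3` and no two
consecutive windows of four.
-/

namespace Vale.Agent.Results.P066.WindowThreeSeparated

open Finset

/-- For every natural unit interval graph with `h i ≤ i + 3` in which `h a = a + 3` and
`h (a + 1) = a + 4` never hold together, the chromatic quasisymmetric function has elementary
coefficients with natural coefficients, uniformly in the colours. -/
theorem result :
    ∀ (n : ℕ) (h : Fin n → Fin n), Monotone h → (∀ a, a ≤ h a) →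
      (∀ a : Fin n, (h a : ℕ) ≤ a + 3) →
      (∀ a b : Fin n, (b : ℕ) = a + 1 → (h a : ℕ) = a + 3 → (h b : ℕ) ≠ b + 3) →
    ∃ c : n.Partition → Polynomial ℕ, ∀ N : ℕ,
      ∑ f : Fin n → Fin N with ∀ a b : Fin n, a < b → b ≤ h a → f a ≠ f b,
        MvPolynomial.C ((Polynomial.X : Polynomial ℤ) ^
            #{p : Fin n × Fin n | p.1 < p.2 ∧ p.2 ≤ h p.1 ∧ f p.1 < f p.2})
          * ∏ a, MvPolynomial.X (f a)
      = ∑ μ : n.Partition, MvPolynomial.C ((c μ).map (Nat.castRingHom ℤ))
          * MvPolynomial.esymmPart (Fin N) (Polynomial ℤ) μ :=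
  fun n h hm _ h3 hs => Vale.Agent.P066.Window.window_epositive n h hm h3 hs

end Vale.Agent.Results.P066.WindowThreeSeparated
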